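import Mathlib.Analysis.ODE.Basic
import Mathlib.MeasureTheory.Function.AbsolutelyContinuous
import Mathlib.Analysis.SpecialFunctions.Pow.Real
import Mathlib.Geometry.Convex.Cone.Pointed

/-! # Permanence, power-law systems and toric differential inclusions: definitions -/

namespace Vale.Agent.N072T

open Set Filter MeasureTheory

variable {d : ℕ} {ι : Type} [Fintype ι]

/-- `x' = f(x)` is permanent on `P`: from every point of `P` there is a solution on `[0, ∞)`,
every solution on `[0, b)` starting in `P` extends to `[0, ∞)`, solutions starting in `P` stay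
in `P`, and one compact `K ⊆ P` contains each of them for all large times. -/
def Permanent (f : (Fin d → ℝ) → Fin d → ℝ) (P : Set (Fin d → ℝ)) : Prop :=
  (∀ a ∈ P, ∃ x, IsIntegralCurveOn x (fun _ => f) (Ici 0) ∧ x 0 = a) ∧
  (∀ b > 0, ∀ x, IsIntegralCurveOn x (fun _ => f) (Ico 0 b) → x 0 ∈ P →
    ∃ z, IsIntegralCurveOn z (fun _ => f) (Ici 0) ∧ EqOn x z (Ico 0 b)) ∧
  ∃ K ⊆ P, IsCompact K ∧ ∀ x, IsIntegralCurveOn x (fun _ => f) (Ici 0) → x 0 ∈ P →
    (∀ t ≥ 0, x t ∈ P) ∧ ∀ᶠ t in atTop, x t ∈ K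

/-- The positive class `(c + span V) ∩ ℝ^d_{>0}`. -/
def posClass (V : Set (Fin d → ℝ)) (c : Fin d → ℝ) : Set (Fin d → ℝ) :=
  {x | (∀ i, 0 < x i) ∧ x - c ∈ Submodule.span ℝ V}

/-- The power-law field `∑ k_r x^(y_r) v_r` with real exponent vectors `y_r` and real reaction
vectors `v_r`. -/
noncomputable def power (y v : ι → Fin d → ℝ) (k : ι → ℝ) (x : Fin d → ℝ) : Fin d → ℝ :=
  ∑ r, (k r * ∏ i, x i ^ y r i) • v r

/-- The graph with edges `y_r → y_r + v_r` in `ℝ^d` is weakly reversible. -/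
def Reversible (y v : ι → Fin d → ℝ) : Prop :=
  ∀ r, Relation.ReflTransGen (fun a b => ∃ s, a = y s ∧ b = y s + v s) (y r + v r) (y r)

/-- The graph with edges `y_r → y_r + v_r` in `ℝ^d` is endotactic: for every direction `w`,
above each edge that goes up there starts an edge that goes down. -/
def Endotactic (y v : ι → Fin d → ℝ) : Prop :=
  ∀ w r, 0 < w ⬝ᵥ v r → ∃ s, w ⬝ᵥ v s < 0 ∧ w ⬝ᵥ y r < w ⬝ᵥ y s

/-- `x` is a positive solution of the differential inclusion `x' ∈ F(t, x)` on `[0, b]`: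
absolutely continuous, positive, and `x'(t) ∈ F(t, x(t))` for almost all `t`. -/
def Solves (F : ℝ → (Fin d → ℝ) → Set (Fin d → ℝ)) (x : ℝ → Fin d → ℝ) (b : ℝ) : Prop :=
  AbsolutelyContinuousOnInterval x 0 b ∧ (∀ t ∈ Icc 0 b, ∀ i, 0 < x t i) ∧
    ∀ᵐ t, t ∈ Icc 0 b → ∃ w ∈ F t (x t), HasDerivAt x w t

/-- The right-hand side of the toric differential inclusion of a finite family of cones: the
convex cone generated by the polar cones of all cones of the family at distance at most `δ`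
from `log x`. -/
def toric (fan : Finset (PointedCone ℝ (Fin d → ℝ))) (δ : ℝ) (x : Fin d → ℝ) :
    Set (Fin d → ℝ) :=
  PointedCone.hull ℝ {w | ∃ C ∈ fan,
    Metric.infDist (fun i => Real.log (x i)) (C : Set (Fin d → ℝ)) ≤ δ ∧ ∀ Y ∈ C, w ⬝ᵥ Y ≤ 0}

end Vale.Agent.N072T
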