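import Vale.Agent.N072T.Mass
import Vale.Agent.N072R.Toric
import Vale.Agent.N072R.Unif

/-! # Differential inclusions: assembly -/

namespace Vale.Agent.N072T

open Set N072R

variable {d : ℕ} {ι : Type} [Fintype ι] {y v : ι → Fin d → ℝ}

/-- Solutions and implicit steps of toric differential inclusions stay in compact sets. -/
theorem toric_box (fan : Finset (PointedCone ℝ (Fin d → ℝ))) (hfg : ∀ C ∈ fan, C.FG) (δ : ℝ)
    (Q : Set (Fin d → ℝ)) (hQ : IsCompact Q) (hp : Q ⊆ {x | ∀ i, 0 < x i}) :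
    ∃ K ⊆ {x | ∀ i, 0 < x i}, IsCompact K ∧
      (∀ b ≥ 0, ∀ x, Solves (fun _ => toric fan δ) x b → x 0 ∈ Q → x b ∈ K) ∧
      ∀ z : ℕ → Fin d → ℝ, (∀ n i, 0 < z n i) → z 0 ∈ Q →
        (∀ n, z (n + 1) - z n ∈ toric fan δ (z (n + 1))) → ∀ n, z n ∈ K := by
  obtain ⟨W, δ', hD⟩ : ∃ W δ', Diss W δ' (toric fan δ) := toric_diss_fg fan hfg δ
  obtain ⟨κ₀, hκ₀, B₀, h0⟩ := N072T.exists_box hQ hp
  obtain ⟨κ, hκ, B, h1⟩ := apriori_box hD κ₀ B₀ hκ₀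
  obtain ⟨κ', hκ', B', h2⟩ := discrete_box hD κ₀ B₀ hκ₀
  refine ⟨cbox κ B ∪ cbox κ' B', ?_, (isCompact_univ_pi fun _ => isCompact_Icc).union
    (isCompact_univ_pi fun _ => isCompact_Icc), fun b hb x hx hx0 => Or.inl fun i _ =>
      h1 x 0 b hb (hx.curve hb) (h0 _ hx0) i, fun z hz hz0 hs n => Or.inr fun i _ =>
      h2 z hz (h0 _ hz0) hs n i⟩
  rintro x (hx | hx) i
  exacts [hκ.trans_le (hx i trivial).1, hκ'.trans_le (hx i trivial).1]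

/-- Uniform permanence of the power-law inclusion. -/
theorem uniform_power (hG : Endotactic y v) {ε : ℝ} (hε : 0 < ε) {c : Fin d → ℝ}
    (hc : ∀ i, 0 < c i) :
    ∃ K ⊆ posClass (range v) c, IsCompact K ∧ ∀ Q ⊆ posClass (range v) c, IsCompact Q →
      ∃ T, ∃ L ⊆ posClass (range v) c, IsCompact L ∧ ∀ b ≥ 0, ∀ x,
        Solves (fun _ => incl y v ε) x b → x 0 ∈ Q → x b ∈ L ∧ (T ≤ b → x b ∈ K) := by
  obtain ⟨W, δ, R, hD, hS, hR⟩ := incl_diss hG hε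
  obtain ⟨κ, hκ, B, h1⟩ := uniform_box hD hS c hc
  have hS1 := hS.1
  rw [hR] at h1 hS1
  have hsub : ∀ κ > 0, ∀ B, {x : Fin d → ℝ | x - c ∈ Submodule.span ℝ (range v) ∧
      ∀ i, κ ≤ x i ∧ x i ≤ B} ⊆ posClass (range v) c :=
    fun κ hκ B x hx => ⟨fun i => hκ.trans_le (hx.2 i).1, hx.1⟩
  refine ⟨_, hsub κ hκ B, N072T.isCompact_box _ c κ B, fun Q hQ hQc => ?_⟩
  obtain ⟨κ₀, hκ₀, B₀, h0⟩ := N072T.exists_box hQc fun x hx => (hQ hx).1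
  obtain ⟨T, hT⟩ := h1 κ₀ hκ₀ B₀
  obtain ⟨κ', hκ', B', h2⟩ := apriori_box hD κ₀ B₀ hκ₀
  refine ⟨T, _, hsub κ' hκ' B', N072T.isCompact_box _ c κ' B', fun b hb x hx hx0 => ?_⟩
  have h3 := mem_class hS1 hb (hx.curve hb) (hQ hx0).2
  exact ⟨⟨h3, h2 x 0 b hb (hx.curve hb) (h0 _ hx0)⟩,
    fun hTb => ⟨h3, hT x b (hx.curve hb) (h0 _ hx0) (hQ hx0).2 hTb⟩⟩

end Vale.Agent.N072T
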