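import Vale.Agent.N072T.Power

/-! # The mass-action case -/

namespace Vale.Agent.N072T

open Set

variable {d : ℕ}

/-- The permanence conjecture. -/
theorem permanent_mass (R : Finset ((Fin d → ℕ) × (Fin d → ℕ)))
    (hR : ∀ r ∈ R, Relation.ReflTransGen (fun a b => (a, b) ∈ R) r.2 r.1)
    (k : (Fin d → ℕ) × (Fin d → ℕ) → ℝ) (hk : ∀ r ∈ R, 0 < k r) (c : Fin d → ℝ)
    (hc : ∀ i, 0 < c i) :
    Permanent (fun x => ∑ r ∈ R, (k r * ∏ i, x i ^ r.1 i) • fun i => (r.2 i : ℝ) - r.1 i)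
      (posClass {w | ∃ r ∈ R, w = fun i => (r.2 i : ℝ) - r.1 i} c) := by
  let φ : (Fin d → ℕ) → Fin d → ℝ := fun a i => a i
  have hrev : Reversible (fun r : R => φ r.1.1) fun r : R => φ r.1.2 - φ r.1.1 := by
    intro r
    simp only [add_sub_cancel]
    exact (hR r.1 r.2).lift φ fun a b h => ⟨⟨(a, b), h⟩, rfl, rfl⟩
  convert permanent_power (endo_of_rev hrev) (k := fun r => k r.1) (fun r => hk r.1 r.2) hc
    using 1
  · funext x
    rw [power, ← Finset.sum_coe_sort R]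
    simp only [φ, Real.rpow_natCast]
    rfl
  · congr 1
    ext w
    constructor
    · rintro ⟨r, hr, rfl⟩
      exact ⟨⟨r, hr⟩, rfl⟩
    · rintro ⟨r, rfl⟩
      exact ⟨r.1, r.2, rfl⟩

end Vale.Agent.N072T
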