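import Vale.Agent.N072T.Defs
import Vale.Agent.P072.H603.Drop

/-! # The network lemma for real exponents -/

namespace Vale.Agent.N072T

open Finset

variable {d : ℕ} {ι : Type} [Fintype ι] {y v : ι → Fin d → ℝ}

theorem mono_eq {x : Fin d → ℝ} (hx : ∀ i, 0 < x i) (a : Fin d → ℝ) :
    ∏ i, x i ^ a i = Real.exp (∑ i, a i * Real.log (x i)) := by
  rw [Real.exp_sum]
  refine prod_congr rfl fun i _ => ?_
  rw [Real.rpow_def_of_pos (hx i), mul_comm]

omit [Fintype ι] in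
theorem endo_of_rev (h : Reversible y v) : Endotactic y v := by
  intro w r hr
  obtain ⟨a, b, -, ⟨s, rfl, rfl⟩, h1, h2⟩ :=
    P072.exists_crossing (P := fun a => w ⬝ᵥ y r < w ⬝ᵥ a) (h r)
      (by simp only [dotProduct_add]; linarith) (lt_irrefl _)
  refine ⟨s, ?_, h1⟩
  simp only [dotProduct_add, not_lt] at h2
  linarith

theorem exists_drop (hG : Endotactic y v) :
    ∃ c : ℝ, 0 < c ∧ c ≤ 1 ∧ ∀ (p : Fin d → ℝ) (r : ι), 0 < p ⬝ᵥ v r →
      ∃ s, 0 < p ⬝ᵥ (y s - y r) ∧ c * (p ⬝ᵥ v r) ≤ -(p ⬝ᵥ v s) := by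
  classical
  obtain ⟨c, hc, hc1, hround⟩ := P072.H603.exists_round
    ((univ.image v) ∪ (univ.image fun q : ι × ι => y q.2 - y q.1))
  refine ⟨c, hc, hc1, fun p r hpos => ?_⟩
  obtain ⟨w, hw⟩ := hround p _ hpos
  have hm1 : ∀ s, v s ∈ (univ.image v) ∪ (univ.image fun q : ι × ι => y q.2 - y q.1) :=
    fun s => mem_union_left _ (mem_image_of_mem _ (mem_univ s))
  have hm2 : ∀ r s, y s - y r ∈ (univ.image v) ∪ (univ.image fun q : ι × ι => y q.2 - y q.1) :=
    fun r s => mem_union_right _ (mem_image.2 ⟨(r, s), mem_univ _, rfl⟩)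
  obtain ⟨s, hneg, hlev⟩ := hG w r ((hw _ (hm1 r)).2.2 le_rfl)
  refine ⟨s, ?_, ?_⟩
  · have h1 : 0 < w ⬝ᵥ (y s - y r) := by rw [dotProduct_sub]; linarith
    exact lt_of_lt_of_le (mul_pos hc hpos) ((hw _ (hm2 r s)).1 h1)
  · have h2 : p ⬝ᵥ v s ≤ -(c * (p ⬝ᵥ v r)) := (hw _ (hm1 s)).2.1 hneg
    linarith

theorem dot_power (k : ι → ℝ) (x p : Fin d → ℝ) :
    p ⬝ᵥ power y v k x = ∑ r, (k r * ∏ i, x i ^ y r i) * (p ⬝ᵥ v r) := by
  simp only [power, dotProduct_sum, dotProduct_smul, smul_eq_mul]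

/-- An abstract form of the network lemma. -/
theorem sum_neg {w D : ι → ℝ} (hw : ∀ r, 0 < w r) {c : ℝ} (hc : 0 < c) (hc1 : c ≤ 1)
    (h : ∀ r, 0 < D r → ∃ s, 2 * (Fintype.card ι + 1) * w r ≤ c * w s ∧ c * D r ≤ -D s) :
    ∑ r, w r * D r ≤ 0 ∧ ∀ a b : ℝ, 0 ≤ a → 0 ≤ b → (∀ r, a ≤ w r) → (∃ r, b ≤ |D r|) →
      ∑ r, w r * D r ≤ -(c / 2 * b * a) := by
  set N : ℝ := ∑ r, w r * max 0 (-D r) with hN
  have hN0 : 0 ≤ N := sum_nonneg fun r _ => mul_nonneg (hw r).le (le_max_left _ _)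
  have hterm : ∀ r, w r * (-D r) ≤ N := fun r =>
    (mul_le_mul_of_nonneg_left (le_max_right _ _) (hw r).le).trans
      (single_le_sum (f := fun r => w r * max 0 (-D r))
        (fun r _ => mul_nonneg (hw r).le (le_max_left _ _)) (mem_univ r))
  set n : ℝ := Fintype.card ι + 1 with hn
  have hn0 : 0 < n := by positivity
  have hpos : ∀ r, w r * D r ≤ N / (2 * n) - w r * max 0 (-D r) := by
    intro r
    rcases le_or_gt (D r) 0 with hle | hgt
    · rw [max_eq_right (by linarith)]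
      have : 0 ≤ N / (2 * n) := by positivity
      linarith
    · rw [max_eq_left (by linarith), mul_zero, sub_zero, le_div_iff₀ (by positivity)]
      obtain ⟨s, h1, h2⟩ := h r hgt
      have h3 := hterm s
      have h4 := mul_le_mul_of_nonneg_right h1 hgt.le
      have h5 := mul_le_mul_of_nonneg_left h2 (hw s).le
      nlinarith
  have hmain : ∑ r, w r * D r ≤ -(N / 2) := by
    have h1 := sum_le_sum fun r (_ : r ∈ univ) => hpos r
    rw [sum_sub_distrib, sum_const, nsmul_eq_mul, card_univ, ← hN] at h1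
    have h2 : (Fintype.card ι : ℝ) * (N / (2 * n)) ≤ n * (N / (2 * n)) :=
      mul_le_mul_of_nonneg_right (by rw [hn]; linarith) (by positivity)
    have h3 : n * (N / (2 * n)) = N / 2 := by field_simp
    linarith
  refine ⟨by linarith, fun a b ha hb hwa ⟨r, hr⟩ => ?_⟩
  have hkey : c * b * a ≤ N := by
    rcases le_or_gt (D r) 0 with hle | hgt
    · rw [abs_of_nonpos hle] at hr
      have h1 : c * b ≤ -D r := by nlinarith
      have h2 := mul_le_mul (hwa r) h1 (by positivity) (hw r).le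
      have := hterm r
      linarith
    · rw [abs_of_pos hgt] at hr
      obtain ⟨s, -, h2⟩ := h r hgt
      have h1 : c * b ≤ -D s := by nlinarith
      have h3 := mul_le_mul (hwa s) h1 (by positivity) (hw s).le
      have := hterm s
      linarith
  linarith

/-- The network lemma, uniformly in the rates. -/
theorem network (hG : Endotactic y v) {ε : ℝ} (hε : 0 < ε) :
    ∃ δ : ℝ, ∃ η > 0, ∀ k : ι → ℝ, (∀ r, k r ∈ Set.Icc ε ε⁻¹) → ∀ x p : Fin d → ℝ,
      (∀ i, 0 < x i) →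
      (∀ r s, 0 < ∑ i, (y s - y r) i * p i → δ < ∑ i, (y s - y r) i * Real.log (x i)) →
      p ⬝ᵥ power y v k x ≤ 0 ∧ ∀ a b : ℝ, 0 ≤ a → 0 ≤ b → (∀ r, a ≤ ∏ i, x i ^ y r i) →
        (∃ r, b ≤ |p ⬝ᵥ v r|) → p ⬝ᵥ power y v k x ≤ -(η * b * a) := by
  obtain ⟨c, hc, hc1, hdrop⟩ := exists_drop hG
  set E : ℝ := 2 * (Fintype.card ι + 1) * ε⁻¹ / (c * ε) with hE
  have hE0 : 0 < E := by positivity
  refine ⟨Real.log E, c / 2 * ε, by positivity, fun k hk x p hx hal => ?_⟩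
  have hM : ∀ r, 0 < ∏ i, x i ^ y r i := fun r => prod_pos fun i _ => Real.rpow_pos_of_pos (hx i) _
  have hk0 : ∀ r, 0 < k r := fun r => hε.trans_le (hk r).1
  obtain ⟨h1, h2⟩ := sum_neg (w := fun r => k r * ∏ i, x i ^ y r i) (D := fun r => p ⬝ᵥ v r)
    (fun r => mul_pos (hk0 r) (hM r)) hc hc1 (by
      intro r hr
      obtain ⟨s, h3, h4⟩ := hdrop p r hr
      refine ⟨s, ?_, h4⟩
      have h5 := hal r s (by rw [dotProduct_comm] at h3; exact h3)
      have h6 : E * ∏ i, x i ^ y r i ≤ ∏ i, x i ^ y s i := by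
        rw [mono_eq hx, mono_eq hx, ← Real.exp_log hE0, ← Real.exp_add, Real.exp_le_exp]
        simp only [Pi.sub_apply, sub_mul, sum_sub_distrib] at h5
        linarith
      have h7 : 2 * (Fintype.card ι + 1) * ε⁻¹ = c * ε * E := by rw [hE]; field_simp
      have h8 := hM r
      have h9 := hM s
      calc 2 * (Fintype.card ι + 1) * (k r * ∏ i, x i ^ y r i)
          ≤ 2 * (Fintype.card ι + 1) * (ε⁻¹ * ∏ i, x i ^ y r i) := by
            gcongr; exact (hk r).2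
        _ = c * (ε * (E * ∏ i, x i ^ y r i)) := by rw [← mul_assoc, h7]; ring
        _ ≤ c * (k s * ∏ i, x i ^ y s i) := mul_le_mul_of_nonneg_left
            (mul_le_mul (hk s).1 h6 (by positivity) (hk0 s).le) hc.le)
  rw [dot_power]
  refine ⟨h1, fun a b ha hb hma hr => ?_⟩
  have h3 := h2 (ε * a) b (by positivity) hb
    (fun r => mul_le_mul (hk r).1 (hma r) ha (hk0 r).le) hr
  linarith

/-- Monomials are bounded below on a box of the open orthant. -/
theorem exists_mono_lower (y : ι → Fin d → ℝ) {κ : ℝ} (hκ : 0 < κ) (B : ℝ) :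
    ∃ a > 0, ∀ x : Fin d → ℝ, (∀ i, κ ≤ x i ∧ x i ≤ B) → ∀ r, a ≤ ∏ i, x i ^ y r i := by
  set L := |Real.log κ| + |Real.log B|
  obtain ⟨a, ha, h⟩ := P072.exists_pos_le (fun r => Real.exp (-∑ i, |y r i| * L))
    fun r => Real.exp_pos _
  refine ⟨a, ha, fun x hx r => (h r).trans ?_⟩
  rw [mono_eq fun i => hκ.trans_le (hx i).1, Real.exp_le_exp, ← sum_neg_distrib]
  refine sum_le_sum fun i _ => ?_
  have h1 := P072.abs_log_le_of_mem hκ (hx i).1 (hx i).2
  have h2 := neg_abs_le (y r i * Real.log (x i))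
  rw [abs_mul] at h2
  have h3 := mul_le_mul_of_nonneg_left h1 (abs_nonneg (y r i))
  linarith

theorem power_mem_span (k : ι → ℝ) (x : Fin d → ℝ) :
    power y v k x ∈ Submodule.span ℝ (Set.range v) :=
  Submodule.sum_mem _ fun r _ => Submodule.smul_mem _ _ (Submodule.subset_span ⟨r, rfl⟩)

end Vale.Agent.N072T
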