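import Vale.Agent.N072T.Net
import Vale.Agent.N072R.Abs
import Mathlib.MeasureTheory.Integral.IntervalIntegral.AbsolutelyContinuousFun
import Mathlib.MeasureTheory.SpecificCodomains.Pi

/-! # Solutions in integral form, the cut-off field, existence and uniqueness -/

namespace Vale.Agent.N072T

open Set MeasureTheory N072R
open scoped NNReal

variable {d : ℕ} {ι : Type} [Fintype ι] {y v : ι → Fin d → ℝ}

theorem ac_apply {x : ℝ → Fin d → ℝ} {a b : ℝ} (h : AbsolutelyContinuousOnInterval x a b)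
    (i : Fin d) : AbsolutelyContinuousOnInterval (fun t => x t i) a b :=
  squeeze_zero (fun _ => Finset.sum_nonneg fun _ _ => dist_nonneg)
    (fun _ => Finset.sum_le_sum fun _ _ => dist_le_pi_dist _ _ i) h

theorem Solves.curve {F : (Fin d → ℝ) → Set (Fin d → ℝ)} {x : ℝ → Fin d → ℝ} {b : ℝ}
    (h : Solves (fun _ => F) x b) (hb : 0 ≤ b) : Curve F x 0 b := by
  obtain ⟨h1, h2, h3⟩ := h
  have hint : ∀ t ∈ Icc 0 b,
      IntervalIntegrable (fun t i => deriv (fun s => x s i) t) volume 0 t := by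
    intro t ht
    have h4 : ∀ i, IntervalIntegrable (deriv fun s => x s i) volume 0 t := fun i =>
      ((ac_apply h1 i).mono (by rw [uIcc_of_le ht.1, uIcc_of_le hb]; exact Icc_subset_Icc_right ht.2)).intervalIntegrable_deriv
    exact ⟨integrable_pi_iff.2 fun i => (h4 i).1, integrable_pi_iff.2 fun i => (h4 i).2⟩
  refine Curve.of_integral hb (uIcc_of_le hb ▸ h1.continuousOn) h2
    (hint b ⟨hb, le_rfl⟩) (fun t ht => eq_add_of_sub_eq' ?_) ?_
  · ext i
    have h5 := ((ac_apply h1 i).mono (c := 0) (d := t) (by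
      rw [uIcc_of_le ht.1, uIcc_of_le hb]; exact Icc_subset_Icc_right ht.2)).integral_deriv_eq_sub
    have h6 := (ContinuousLinearMap.proj (R := ℝ) (φ := fun _ : Fin d => ℝ) i).intervalIntegral_comp_comm (hint t ht)
    simp only [ContinuousLinearMap.proj_apply] at h6
    rw [Pi.sub_apply, ← h5, h6]
  · filter_upwards [h3] with t ht htb
    obtain ⟨w, hw, hd⟩ := ht htb
    have : (fun i => deriv (fun s => x s i) t) = w :=
      funext fun i => (hasDerivAt_pi.1 hd i).deriv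
    rw [this]; exact hw

theorem contDiffOn_mono (a : Fin d → ℝ) :
    ContDiffOn ℝ 1 (fun x : Fin d → ℝ => ∏ i, x i ^ a i) {x | ∀ i, 0 < x i} :=
  contDiffOn_prod fun i _ => (contDiff_apply ℝ ℝ i).contDiffOn.rpow_const_of_ne
    fun _ hx => (hx i).ne'

theorem continuousOn_power (k : ι → ℝ) :
    ContinuousOn (power y v k) {x | ∀ i, 0 < x i} :=
  continuousOn_finsetSum _ fun r _ =>
    (continuousOn_const.mul (contDiffOn_mono (y r)).continuousOn).smul continuousOn_const

/-- Classical solutions are solutions in integral form. -/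
theorem curve_of_deriv {F : (Fin d → ℝ) → Set (Fin d → ℝ)} {f : (Fin d → ℝ) → Fin d → ℝ}
    (hf : ContinuousOn f {x | ∀ i, 0 < x i}) (hF : ∀ a, f a ∈ F a) {x : ℝ → Fin d → ℝ} {b : ℝ}
    (hb : 0 ≤ b) (hx : ∀ t ∈ Icc 0 b, HasDerivWithinAt x (f (x t)) (Icc 0 b) t)
    (hp : ∀ t ∈ Icc 0 b, ∀ i, 0 < x t i) : Curve F x 0 b := by
  have hc : ContinuousOn x (Icc 0 b) := fun t ht => (hx t ht).continuousWithinAt
  have hu : ContinuousOn (fun t => f (x t)) (Icc 0 b) := hf.comp hc hp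
  refine Curve.of_integral hb hc hp (hu.intervalIntegrable_of_Icc hb)
    (fun t ht => eq_add_of_sub_eq' ?_) (Filter.Eventually.of_forall fun r _ => hF _)
  have hs : Icc 0 t ⊆ Icc 0 b := Icc_subset_Icc_right ht.2
  refine (intervalIntegral.integral_eq_sub_of_hasDerivAt_of_le ht.1 (hc.mono hs)
    (fun r hr => ?_) ((hu.mono hs).intervalIntegrable_of_Icc ht.1)).symm
  exact (hx r (hs (Ioo_subset_Icc_self hr))).hasDerivAt
    (Icc_mem_nhds hr.1 (hr.2.trans_le ht.2))

/-- A path that is in a closed subset `K` of an open set `U` as long as it has been in `U`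
stays in `K`. -/
theorem stay {E : Type*} [TopologicalSpace E] {U K : Set E} (hU : IsOpen U) (hK : IsClosed K)
    (hKU : K ⊆ U) {x : ℝ → E} {b : ℝ} (hc : ContinuousOn x (Icc 0 b)) (h0 : x 0 ∈ U)
    (h : ∀ t ∈ Icc 0 b, (∀ r ∈ Icc 0 t, x r ∈ U) → x t ∈ K) : ∀ t ∈ Icc 0 b, x t ∈ K := by
  suffices hs : ∀ t ∈ Icc 0 b, x t ∈ U from
    fun t ht => h t ht fun r hr => hs r ⟨hr.1, hr.2.trans ht.2⟩
  by_contra hcon
  push Not at hcon
  have hA : IsClosed (Icc 0 b ∩ x ⁻¹' Uᶜ) :=
    hc.preimage_isClosed_of_isClosed isClosed_Icc hU.isClosed_compl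
  have hb : BddBelow (Icc 0 b ∩ x ⁻¹' Uᶜ) := ⟨0, fun t ht => ht.1.1⟩
  have hm := hA.csInf_mem (by obtain ⟨t, h1, h2⟩ := hcon; exact ⟨t, h1, h2⟩) hb
  set s := sInf (Icc 0 b ∩ x ⁻¹' Uᶜ)
  have hs0 : 0 < s := lt_of_le_of_ne hm.1.1 fun e => hm.2 (e ▸ h0)
  have hlt : ∀ t ∈ Ico 0 s, x t ∈ U := fun t ht => by
    by_contra hn
    exact absurd (csInf_le hb ⟨⟨ht.1, ht.2.le.trans hm.1.2⟩, hn⟩) (not_le.2 ht.2)
  have h1 : ContinuousWithinAt x (Ico 0 s) s :=
    (hc s hm.1).mono fun t ht => ⟨ht.1, ht.2.le.trans hm.1.2⟩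
  have h2 := h1.mem_closure (by rw [closure_Ico hs0.ne]; exact ⟨hs0.le, le_rfl⟩) (t := K)
    fun t ht => h t ⟨ht.1, ht.2.le.trans hm.1.2⟩ fun r hr => hlt r ⟨hr.1, hr.2.trans_lt ht.2⟩
  rw [hK.closure_eq] at h2
  exact hm.2 (hKU h2)

/-- The open box. -/
def obox (κ B : ℝ) : Set (Fin d → ℝ) := univ.pi fun _ => Ioo κ B

/-- The closed box. -/
def cbox (κ B : ℝ) : Set (Fin d → ℝ) := univ.pi fun _ => Icc κ B

/-- Cut-off monomials. -/
theorem exists_cut (a : Fin d → ℝ) {κ : ℝ} (hκ : 0 < κ) (B : ℝ) :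
    ∃ (g : (Fin d → ℝ) → ℝ) (K : ℝ≥0) (L : ℝ), LipschitzWith K g ∧ (∀ x, |g x| ≤ L) ∧
      ∀ x ∈ obox κ B, g x = ∏ i, x i ^ a i := by
  have hsub : cbox κ (max κ B) ⊆ {x : Fin d → ℝ | ∀ i, 0 < x i} :=
    fun x hx i => hκ.trans_le (hx i trivial).1
  have hcomp : IsCompact (cbox (d := d) κ (max κ B)) := isCompact_univ_pi fun _ => isCompact_Icc
  obtain ⟨K, hK⟩ := ((contDiffOn_mono a).mono hsub).exists_lipschitzOnWith (by decide)
    (convex_pi fun _ _ => convex_Icc _ _) hcomp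
  obtain ⟨L, hL⟩ := hcomp.exists_bound_of_continuousOn
    ((contDiffOn_mono a).mono hsub).continuousOn
  let π : (Fin d → ℝ) → Fin d → ℝ := fun x i => max κ (min (max κ B) (x i))
  have hπ : ∀ x, π x ∈ cbox κ (max κ B) := fun x i _ =>
    ⟨le_max_left _ _, max_le (le_max_left _ _) (min_le_left _ _)⟩
  have hπl : LipschitzWith 1 π := LipschitzWith.of_dist_le_mul fun x z =>
    (dist_pi_le_iff (by positivity)).2 fun i =>
      (((LipschitzWith.eval i).const_min (max κ B)).const_max κ).dist_le_mul x z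
  refine ⟨fun x => ∏ i, π x i ^ a i, K * 1, L, ?_, fun x => hL _ (hπ x), fun x hx => ?_⟩
  · rw [← lipschitzOnWith_univ]
    exact hK.comp hπl.lipschitzOnWith fun x _ => hπ x
  · refine Finset.prod_congr rfl fun i _ => ?_
    simp only [π]
    rw [min_eq_right ((hx i trivial).2.le.trans (le_max_right _ _)),
      max_eq_right (hx i trivial).1.le]

/-- The cut-off field for measurable rates. -/
theorem exists_carLip (y v : ι → Fin d → ℝ) {κ : ℝ} (hκ : 0 < κ) (B : ℝ) {k : ι → ℝ → ℝ}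
    (hm : ∀ r, Measurable (k r)) {M : ℝ} (hM : ∀ r t, |k r t| ≤ M) :
    ∃ (g : ℝ → (Fin d → ℝ) → Fin d → ℝ) (K L : ℝ), P072.CarLip g K L ∧
      ∀ t, ∀ x ∈ obox κ B, g t x = power y v (fun r => k r t) x := by
  choose g K L hK hL hg using fun r => exists_cut (y r) hκ B
  refine ⟨fun t x => ∑ r, (k r t * g r x) • v r, ∑ r, |M| * K r * ‖v r‖,
    ∑ r, |M| * |L r| * ‖v r‖, ⟨by positivity, by positivity, fun x hx a b => ?_,
      fun t x z => ?_, fun t x => ?_⟩, fun t x hx => ?_⟩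
  · have h1 : ∀ r, IntervalIntegrable (fun s => (k r s * g r (x s)) • v r) volume a b := by
      intro r
      have h2 : IntervalIntegrable (k r) volume a b := by
        rw [intervalIntegrable_iff]
        exact Measure.integrableOn_of_bounded (M := M) (by simp [uIoc])
          (hm r).aestronglyMeasurable (Filter.Eventually.of_forall fun s => hM r s)
      have h3 := h2.mul_continuousOn ((hK r).continuous.comp hx).continuousOn
      exact ⟨Integrable.smul_const h3.1 _, Integrable.smul_const h3.2 _⟩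
    exact ⟨integrable_finsetSum _ fun r _ => (h1 r).1, integrable_finsetSum _ fun r _ => (h1 r).2⟩
  · rw [← Finset.sum_sub_distrib, Finset.sum_mul]
    refine (norm_sum_le _ _).trans (Finset.sum_le_sum fun r _ => ?_)
    have h1 := (hK r).dist_le_mul x z
    rw [dist_eq_norm, dist_eq_norm] at h1
    rw [← sub_smul, ← mul_sub, norm_smul, norm_mul]
    calc _ ≤ |M| * (K r * ‖x - z‖) * ‖v r‖ := by
          gcongr; exact (hM r t).trans (le_abs_self M)
      _ = _ := by ring
  · refine (norm_sum_le _ _).trans (Finset.sum_le_sum fun r _ => ?_)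
    rw [norm_smul, norm_mul]
    gcongr
    · exact (hM r t).trans (le_abs_self M)
    · exact (hL r x).trans (le_abs_self _)
  · exact Finset.sum_congr rfl fun r _ => by rw [hg r x hx]

end Vale.Agent.N072T
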