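import Vale.Agent.N072T.Ode

/-! # Permanence of endotactic power-law systems -/

namespace Vale.Agent.N072T

open Set MeasureTheory N072R
open scoped NNReal

variable {d : ℕ} {ι : Type} [Fintype ι] {y v : ι → Fin d → ℝ}

/-- The velocities of the power-law system for all rates in `[ε, ε⁻¹]`. -/
def incl (y v : ι → Fin d → ℝ) (ε : ℝ) (a : Fin d → ℝ) : Set (Fin d → ℝ) :=
  {w | ∃ k : ι → ℝ, (∀ r, k r ∈ Icc ε ε⁻¹) ∧ w = power y v k a}

theorem incl_diss (hG : Endotactic y v) {ε : ℝ} (hε : 0 < ε) :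
    ∃ W δ R, Diss W δ (incl y v ε) ∧ SDiss W δ R (incl y v ε) ∧ (R : Set _) = range v := by
  classical
  obtain ⟨δ, η, hη, h⟩ := network hG hε
  have hR : ((Finset.univ.image v : Finset _) : Set (Fin d → ℝ)) = range v := by simp
  have hal : ∀ {x p}, Aligned (Finset.univ.image fun q : ι × ι => y q.2 - y q.1) δ p x →
      ∀ r s, 0 < ∑ i, (y s - y r) i * p i → δ < ∑ i, (y s - y r) i * Real.log (x i) :=
    fun hp r s => hp _ (Finset.mem_image.2 ⟨(r, s), Finset.mem_univ _, rfl⟩)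
  refine ⟨Finset.univ.image fun q : ι × ι => y q.2 - y q.1, δ, Finset.univ.image v, ?_,
    ⟨?_, fun κ hκ B b hb => ?_⟩, hR⟩
  · rintro x hx p hp _ ⟨k, hk, rfl⟩
    exact (h k hk x p hx (hal hp)).1
  · rintro x - _ ⟨k, -, rfl⟩
    rw [hR]
    exact power_mem_span k x
  · obtain ⟨a, ha, hm⟩ := exists_mono_lower y hκ B
    refine ⟨η * b * a, by positivity, ?_⟩
    rintro x hx p hp ⟨w, hw, hwb⟩ _ ⟨k, hk, rfl⟩
    obtain ⟨r, -, rfl⟩ := Finset.mem_image.1 hw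
    exact (h k hk x p (fun i => hκ.trans_le (hx i).1) (hal hp)).2 a b ha.le hb.le (hm x hx)
      ⟨r, hwb⟩

theorem exists_box {Q : Set (Fin d → ℝ)} (hQ : IsCompact Q) (hp : ∀ x ∈ Q, ∀ i, 0 < x i) :
    ∃ κ > 0, ∃ B, ∀ x ∈ Q, ∀ i, κ ≤ x i ∧ x i ≤ B := by
  obtain ⟨B, hB⟩ := hQ.exists_bound_of_continuousOn continuousOn_id
  have h : ∀ i, ∃ κ > 0, ∀ x ∈ Q, κ ≤ x i := fun i =>
    hQ.exists_forall_le' (continuous_apply i).continuousOn fun x hx => hp x hx i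
  choose κf h1 h2 using h
  obtain ⟨κ, hκ, h3⟩ := P072.exists_pos_le κf h1
  exact ⟨κ, hκ, B, fun x hx i => ⟨(h3 i).trans (h2 i x hx),
    (le_abs_self _).trans ((norm_le_pi_norm x i).trans (hB x hx))⟩⟩

theorem isCompact_box (V : Set (Fin d → ℝ)) (c : Fin d → ℝ) (κ B : ℝ) :
    IsCompact {x : Fin d → ℝ | x - c ∈ Submodule.span ℝ V ∧ ∀ i, κ ≤ x i ∧ x i ≤ B} := by
  have h1 : IsClosed {x : Fin d → ℝ | x - c ∈ Submodule.span ℝ V} :=
    (Submodule.closed_of_finiteDimensional _).preimage (continuous_id.sub continuous_const)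
  have h2 : IsCompact (cbox (d := d) κ B) := isCompact_univ_pi fun _ => isCompact_Icc
  convert h2.inter_left h1 using 1
  ext x
  simp [cbox, Pi.le_def, forall_and]

/-- A trapping region: paths from `a` that are curves of `F` as long as they have stayed in an
open box of the orthant stay in this box. -/
theorem exists_trap {F : (Fin d → ℝ) → Set (Fin d → ℝ)} {W : Finset (Fin d → ℝ)} {δ : ℝ}
    (hF : Diss W δ F) {a : Fin d → ℝ} (ha : ∀ i, 0 < a i) :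
    ∃ κ > 0, ∃ B, ∀ (x : ℝ → Fin d → ℝ) (b : ℝ), ContinuousOn x (Icc 0 b) → x 0 = a →
      (∀ t ∈ Icc 0 b, (∀ r ∈ Icc 0 t, x r ∈ obox κ B) → Curve F x 0 t) →
      ∀ t ∈ Icc 0 b, x t ∈ obox κ B := by
  obtain ⟨κ₀, hκ₀, B₀, h0⟩ := exists_box (isCompact_singleton (x := a)) (by simpa using ha)
  obtain ⟨κ, hκ, B, h⟩ := apriori_box hF κ₀ B₀ hκ₀
  have hm : 0 < min κ κ₀ := lt_min hκ hκ₀
  have hs : ∀ κ' B', min κ κ₀ ≤ κ' → B' ≤ max B B₀ →
      cbox (d := d) κ' B' ⊆ obox (min κ κ₀ / 2) (max B B₀ + 1) :=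
    fun κ' B' h1 h2 x hx i _ => ⟨by linarith [(hx i trivial).1], by linarith [(hx i trivial).2]⟩
  refine ⟨min κ κ₀ / 2, by positivity, max B B₀ + 1, fun x b hc hx0 hx t ht => ?_⟩
  have hs1 := hs κ B (min_le_left _ _) (le_max_left _ _)
  refine hs1 (stay (isOpen_set_pi finite_univ fun _ _ => isOpen_Ioo)
    (isClosed_set_pi fun _ _ => isClosed_Icc) hs1 hc ?_ (fun t ht hr i _ => ?_) t ht)
  · exact hs κ₀ B₀ (min_le_right _ _) (le_max_right _ _) fun i _ => hx0 ▸ h0 a rfl i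
  · exact h x 0 t ht.1 (hx t ht hr) (hx0 ▸ h0 a rfl) i

/-- Existence of global solutions for measurable rates. -/
theorem exists_solves (hG : Endotactic y v) {ε : ℝ} (hε : 0 < ε) {k : ι → ℝ → ℝ}
    (hm : ∀ r, Measurable (k r)) (hk : ∀ r t, k r t ∈ Icc ε ε⁻¹) {a : Fin d → ℝ}
    (ha : ∀ i, 0 < a i) :
    ∃ x, x 0 = a ∧ ∀ b ≥ 0, Solves (fun t z => {power y v (fun r => k r t) z}) x b := by
  obtain ⟨W, δ, R, hD, -, -⟩ := incl_diss hG hε
  obtain ⟨κ, hκ, B, htrap⟩ := exists_trap hD ha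
  obtain ⟨g, K, L, hg, hgf⟩ := exists_carLip y v hκ B hm (M := ε⁻¹) fun r t => by
    rw [abs_of_pos (hε.trans_le (hk r t).1)]; exact (hk r t).2
  obtain ⟨z, hzc, hz0, hz⟩ := P072.exists_global_car hg a
  have hbox : ∀ t ≥ 0, z t ∈ obox κ B := fun t ht =>
    htrap z t hzc.continuousOn hz0 (fun s hs hr => Curve.of_integral hs.1 hzc.continuousOn
      (fun r h i => hκ.trans (hr r h i trivial).1) (hg.int z hzc 0 s)
      (fun b hb => by rw [hz0]; exact hz b hb.1) (Filter.Eventually.of_forall fun r h =>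
        ⟨fun q => k q r, fun q => hk q r, hgf r _ (hr r h)⟩)) t ⟨ht, le_rfl⟩
  refine ⟨fun t => a + ∫ s in (0 : ℝ)..t, g s (z s), by simp, fun b hb => ⟨?_, ?_, ?_⟩⟩
  · refine LipschitzOnWith.absolutelyContinuousOnInterval (K := ⟨L, hg.L_nonneg⟩)
      (LipschitzOnWith.of_dist_le_mul fun s _ t _ => ?_)
    rw [dist_eq_norm, add_sub_add_left_eq_sub,
      intervalIntegral.integral_interval_sub_left (hg.int z hzc _ _) (hg.int z hzc _ _),
      Real.dist_eq]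
    exact intervalIntegral.norm_integral_le_of_norm_le_const fun r _ => hg.bdd r _
  · intro t ht i
    beta_reduce
    rw [← hz t ht.1]
    exact hκ.trans (hbox t ht.1 i trivial).1
  · filter_upwards [(hg.int z hzc 0 b).ae_hasDerivAt_integral] with t h ht
    refine ⟨_, rfl, ?_⟩
    rw [← hz t ht.1, ← hgf t _ (hbox t ht.1)]
    exact (h (by rwa [uIcc_of_le hb]) 0 left_mem_uIcc).const_add a

theorem mem_class {F : (Fin d → ℝ) → Set (Fin d → ℝ)} {V : Set (Fin d → ℝ)}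
    (hS : ∀ y : Fin d → ℝ, (∀ i, 0 < y i) → ∀ u ∈ F y, u ∈ Submodule.span ℝ V)
    {x : ℝ → Fin d → ℝ} {b : ℝ} (hb : 0 ≤ b) (hx : Curve F x 0 b) {c : Fin d → ℝ}
    (h0 : x 0 - c ∈ Submodule.span ℝ V) : x b - c ∈ Submodule.span ℝ V := by
  have := Submodule.add_mem _ (hx.sub_mem hb _ hS) h0
  rwa [sub_add_sub_cancel] at this

/-- Permanence for constant rates. -/
theorem permanent_power (hG : Endotactic y v) {k : ι → ℝ} (hk : ∀ r, 0 < k r)
    {c : Fin d → ℝ} (hc : ∀ i, 0 < c i) : Permanent (power y v k) (posClass (range v) c) := by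
  obtain ⟨ε, hε, hk'⟩ : ∃ ε > 0, ∀ r, k r ∈ Icc ε ε⁻¹ := by
    obtain ⟨ε, hε, h⟩ := P072.exists_pos_le (fun r => min (k r) (k r)⁻¹)
      fun r => lt_min (hk r) (inv_pos.2 (hk r))
    exact ⟨ε, hε, fun r => ⟨(h r).trans (min_le_left _ _),
      le_inv_of_le_inv₀ hε ((h r).trans (min_le_right _ _))⟩⟩
  obtain ⟨W, δ, R, hD, hS, hR⟩ := incl_diss hG hε
  have hF : ∀ a, power y v k a ∈ incl y v ε a := fun a => ⟨k, hk', rfl⟩
  have key : ∀ a : Fin d → ℝ, (∀ i, 0 < a i) → ∃ (g : (Fin d → ℝ) → Fin d → ℝ) (K L : ℝ≥0),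
      LipschitzWith K g ∧ (∀ x, ‖g x‖ ≤ L) ∧ ∀ (x : ℝ → Fin d → ℝ) (b : ℝ), x 0 = a →
        ((∀ t ∈ Icc 0 b, HasDerivWithinAt x (g (x t)) (Icc 0 b) t) ∨
          ∀ t ∈ Icc 0 b, HasDerivWithinAt x (power y v k (x t)) (Icc 0 b) t) →
        ∀ t ∈ Icc 0 b, (∀ i, 0 < x t i) ∧ g (x t) = power y v k (x t) := by
    intro a ha
    obtain ⟨κ, hκ, B, htrap⟩ := exists_trap hD ha
    obtain ⟨g, K, L, hg, hgf⟩ := exists_carLip y v hκ B (k := fun r _ => k r)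
      (fun _ => measurable_const) (M := ε⁻¹) fun r t => by
        rw [abs_of_pos (hk r)]; exact (hk' r).2
    refine ⟨g 0, ⟨K, hg.K_nonneg⟩, ⟨L, hg.L_nonneg⟩, LipschitzWith.of_dist_le_mul fun x z => ?_,
      hg.bdd 0, fun x b h0 hx t ht => ?_⟩
    · rw [dist_eq_norm, dist_eq_norm]; exact hg.lip 0 x z
    have hb := htrap x b (fun t ht => hx.elim (fun h => (h t ht).continuousWithinAt)
      fun h => (h t ht).continuousWithinAt) h0 (fun s hs hr => curve_of_deriv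
        (continuousOn_power k) hF hs.1 (fun r h => ?_)
          fun r h i => hκ.trans (hr r h i trivial).1) t ht
    · exact ⟨fun i => hκ.trans (hb i trivial).1, hgf 0 _ hb⟩
    · have hsub : Icc 0 s ⊆ Icc 0 b := Icc_subset_Icc_right hs.2
      rcases hx with h1 | h1
      · exact hgf 0 _ (hr r h) ▸ (h1 r (hsub h)).mono hsub
      · exact (h1 r (hsub h)).mono hsub
  have hex : ∀ a : Fin d → ℝ, (∀ i, 0 < a i) →
      ∃ x, IsIntegralCurveOn x (fun _ => power y v k) (Ici 0) ∧ x 0 = a := by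
    intro a ha
    obtain ⟨g, K, L, hK, hL, h⟩ := key a ha
    obtain ⟨z, hz0, hz⟩ := P072.exists_global_of_lipschitz hK hL a
    refine ⟨z, fun t ht => ?_, hz0⟩
    beta_reduce
    rw [← (h z t hz0 (Or.inl fun r hr => (hz r hr.1).mono Icc_subset_Ici_self) t ⟨ht, le_rfl⟩).2]
    exact hz t ht
  refine ⟨fun a ha => hex a ha.1, fun b _ x hx hx0 => ?_, ?_⟩
  · obtain ⟨z, hz, hz0⟩ := hex (x 0) hx0.1
    obtain ⟨g, K, L, hK, -, h⟩ := key (x 0) hx0.1
    refine ⟨z, hz, fun T hT => ?_⟩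
    have h1 : ∀ t ∈ Icc 0 T, HasDerivWithinAt x (power y v k (x t)) (Icc 0 T) t := fun t ht =>
      (hx t ⟨ht.1, ht.2.trans_lt hT.2⟩).mono (Icc_subset_Ico_right hT.2)
    have h2 : ∀ t ∈ Icc 0 T, HasDerivWithinAt z (power y v k (z t)) (Icc 0 T) t := fun t ht =>
      (hz t ht.1).mono Icc_subset_Ici_self
    exact P072.unique_of_lipschitz hK (fun t ht => (h x T rfl (Or.inr h1) t ht).2 ▸ h1 t ht)
      (fun t ht => (h z T hz0 (Or.inr h2) t ht).2 ▸ h2 t ht) hz0.symm ⟨hT.1, le_rfl⟩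
  · obtain ⟨κ, hκ, B, hev⟩ := eventual_box hD hS c hc
    have hS1 := hS.1
    rw [hR] at hev hS1
    refine ⟨_, fun x hx => ⟨fun i => hκ.trans_le (hx.2 i).1, hx.1⟩,
      isCompact_box (range v) c κ B, fun x hx hx0 => ?_⟩
    obtain ⟨g, K, L, -, -, h⟩ := key (x 0) hx0.1
    have hcv : ∀ t ≥ 0, Curve (incl y v ε) x 0 t := fun t ht => by
      have h1 : ∀ r ∈ Icc 0 t, HasDerivWithinAt x (power y v k (x r)) (Icc 0 t) r :=
        fun r hr => (hx r hr.1).mono Icc_subset_Ici_self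
      exact curve_of_deriv (continuousOn_power k) hF ht h1
        fun r hr => (h x t rfl (Or.inr h1) r hr).1
    have hcl : ∀ t ≥ 0, x t - c ∈ Submodule.span ℝ (range v) := fun t ht =>
      mem_class hS1 ht (hcv t ht) hx0.2
    obtain ⟨t₀, ht₀, h2⟩ := hev x hcv hx0.2
    exact ⟨fun t ht => ⟨(hcv t ht).pos t ⟨ht, le_rfl⟩, hcl t ht⟩,
      Filter.eventually_atTop.2 ⟨t₀, fun t ht => ⟨hcl t (ht₀.trans ht), h2 t ht⟩⟩⟩

end Vale.Agent.N072T
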